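import Vale.Agent.P011UF2.Defs
import Vale.Agent.P011UQ.Asm
import Vale.Agent.P011UGC5.Lv
import Vale.Agent.P011UMS.Dat

/-!
The torus of the derived group of a Levi subgroup and the Tits classes of `E₆`.
-/

set_option autoImplicit false
set_option linter.all false

namespace Vale.Agent.P011UF2h

open Matrix Vale.Agent.P011L Vale.Agent.P011LD Vale.Agent.P183CH Vale.Agent.P183CH.RG
  Vale.Agent.P011U Vale.Agent.P011UQ Vale.Agent.P011UF2

theorem tlj : TLJ := fun D _ _ _ _ _ _ h1 h2 => P011UGC5.TJ_of GG_ok (Chev.R_ok D) h2 h1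

variable {k K : Type} [Field k] [Field K] [Algebra k K] {D : Chev} {T : Tw k (D.grp K)}
  {g : (K ≃ₐ[k] K) → D.grp K} {c : (K ≃ₐ[k] K) → Fin D.R.r → Kˣ}
  {π : (K ≃ₐ[k] K) → Equiv.Perm (Fin D.R.r)} {z : (K ≃ₐ[k] K) → (K ≃ₐ[k] K) → Fin D.R.r → Kˣ}

/-- The Tits cocycle is a coboundary. -/
theorem lift_top [Normal k K] (h : ∀ σ, Std (GG D K) (T.a σ) σ (g σ) (c σ) (π σ))
    (h0 : Op ⊤ fun τ => g τ = 1) (hz : ∀ σ τ, tz T g σ τ = GG_ok.hT (z σ τ))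
    {t : _ → Fin D.R.r → Kˣ}
    (h1 : ∀ σ τ j, z σ τ (π σ j) * um σ (t τ j) * t σ (π σ j) = t (σ * τ) (π σ j))
    (h2 : Op ⊤ fun σ => t σ = 1) : Lift T := by
  refine lift_of (fun σ => std_mul GG_ok (Chev.R_ok D) (h σ) (t σ)) (fun σ τ => ?_)
    ((h0.and h2).imp fun σ _ e => by simp [e.1, e.2])
  have e2 := std_hT GG_ok (ψ := (T.a σ).toMonoidHom) (σ := (σ : K →+* K)) (h _) (t τ)
  have e3 : z _ _ * (fun j => um _ (t _ ((π _)⁻¹ j))) * t _ = t _ := funext fun j => by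
    simpa using h1 σ τ ((π σ)⁻¹ j)
  have e4 := congrArg GG_ok.hT e3
  rw [map_mul, map_mul, ← hz] at e4
  show (g (σ * τ) * GG_ok.hT (t (σ * τ)))⁻¹ * (T.a σ).toMonoidHom (g _ * _) * _ = 1
  rw [map_mul, e2, ← e4, tz]
  exact (by intros; group : ∀ a b c d e : D.grp K,
    (a * (a⁻¹ * b * c * d * e))⁻¹ * (b * (c * d * c⁻¹)) * (c * e) = 1) _ _ _ _ _

/-- The lemma of Shapiro for all nodes. -/
theorem lift_bd [Normal k K] (hD : SC D) (h : NF T g c π)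
    (hz : ∀ σ τ, tz T g σ τ = GG_ok.hT (z σ τ)) (hB : ∀ i, Bd z {σ | π σ i = i} i) : Lift T := by
  obtain ⟨p, z', b1, b2, b3, -⟩ := nf_co hD h
  obtain rfl : z' = z := funext₂ fun σ τ => hD.hT_inj ((b3 σ τ).symm.trans (hz σ τ))
  obtain rfl : π = p := (funext b1).symm
  have ex : ∀ j, ∃ i, ∃ s, p s i = j := fun j => ⟨j, 1, by simp⟩
  obtain ⟨t, t1, t2⟩ := shapiro b2 (Δ := ⊤) (b := fun j => (ex j).choose) (fun σ j => by
      congr 1
      exact funext fun i => propext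
        ⟨fun ⟨s, e⟩ => ⟨σ⁻¹ * s, by simp [e]⟩, fun ⟨s, e⟩ => ⟨σ * s, by simp [e]⟩⟩)
    (fun j => (ex j).choose_spec.imp fun s e => ⟨trivial, e⟩)
    fun j => (hB _).imp fun μ e => ⟨fun σ x τ y => e.1 σ x.1 τ y.1, e.2.imp fun σ _ a x => a x.1⟩
  exact lift_top h.1 ((near_op h.2.2).imp fun τ _ e => by simpa [h.2.1] using (e 1).1) b3
    (fun σ τ => t1 σ trivial τ trivial) (t2.imp fun σ _ e => e trivial)

/-- The characters in the root lattice give coboundaries. -/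
theorem chi_bd (hπ : ∀ σ, Dg D.R (π σ)) (hm : ∀ σ τ, π (σ * τ) = π σ * π τ)
    (hc : ∀ σ τ j, c (σ * τ) j =
      chi0 D.R K (D.R.α (π (σ * τ) j)) (z σ τ) * (c σ (π τ j) * um σ (c τ j))) {γ : D.R.Q}
    {σ τ : K ≃ₐ[k] K} (h1 : ∀ j, D.R.pr γ (π σ j) = D.R.pr γ j)
    (h2 : ∀ j, D.R.pr γ (π τ j) = D.R.pr γ j) :
    chi0 D.R K γ (z σ τ) * um σ (∏ j, c τ j ^ γ j) * ∏ j, c σ j ^ γ j = ∏ j, c (σ * τ) j ^ γ j := by
  have e : ∀ σ, (∀ j, D.R.pr γ (π σ j) = D.R.pr γ j) → ∀ j, γ (π σ j) = γ j := fun σ x j => by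
    have : P011UP.pm (π σ) γ = γ := (Chev.R_ok D).pr_inj (funext fun j => by
      obtain ⟨j, rfl⟩ := (π σ).surjective j
      rw [P011UP.pm_pr (hπ σ), x])
    simpa [P011UP.pm] using (congrFun this (π σ j)).symm
  have a1 : ∏ j, chi0 D.R K (D.R.α (π (σ * τ) j)) (z σ τ) ^ γ j = chi0 D.R K γ (z σ τ) := by
    rw [← chi0_prod D.R γ,
      ← Equiv.prod_comp (π (σ * τ)) fun j => chi0 D.R K (D.R.α j) (z σ τ) ^ γ j]
    simp only [hm, Equiv.Perm.mul_apply, e _ h1, e _ h2]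
  have a2 : ∏ j, c σ (π τ j) ^ γ j = ∏ j, c σ j ^ γ j := by
    rw [← Equiv.prod_comp (π τ) fun j => c σ j ^ γ j]
    simp only [e _ h2]
  simp only [hc, mul_zpow, Finset.prod_mul_distrib, a1, a2, map_prod, map_zpow]
  rw [mul_assoc, mul_comm (∏ j, c σ j ^ γ j)]

/-- three times the inverse of the Cartan matrix -/
def N6 : Matrix (Fin 6) (Fin 6) ℤ :=
  !![4, 3, 5, 6, 4, 2; 3, 6, 6, 9, 6, 3; 5, 6, 10, 12, 8, 4; 6, 9, 12, 18, 12, 6;
    4, 6, 8, 12, 10, 5; 2, 3, 4, 6, 5, 4]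

theorem wt6 : ∀ a b : Fin 6, b ≠ 1 → b ≠ 3 → ∃ m : Fin 3, (m = 0 ∨ (a ≠ 1 ∧ a ≠ 3)) ∧ ∀ d,
    ∑ x, (N6 a x - (m : ℕ) * N6 b x) / 3 * CartanMatrix.E₆ x d =
      (if d = a then 1 else 0) - if d = b then ((m : ℕ) : ℤ) else 0 := by decide +kernel

theorem lft : LFT := by
  intro k K _ _ _ _ _ D hD T e te g c π h z hz j j1 j3 b b0 hb
  refine lift_bd hD h hz fun i => ?_
  obtain ⟨p, z', b1, -, b3, b4, b5⟩ := nf_co hD h
  obtain rfl : z' = z := funext₂ fun σ τ => hD.hT_inj ((b3 σ τ).symm.trans (hz σ τ))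
  obtain rfl : π = p := (funext b1).symm
  obtain ⟨m, m0, hm⟩ := wt6 (e i) (e j) j1 j3
  let γ : D.R.Q := fun x => (N6 (e i) (e x) - (m : ℕ) * N6 (e j) (e x)) / 3
  have pr : ∀ d, D.R.pr γ d = (if d = i then 1 else 0) - if d = j then ((m : ℕ) : ℤ) else 0 :=
    fun d => by
      have := hm (e d)
      rw [← e.sum_comp] at this
      rw [RS.pr_eq]
      simp only [e.apply_eq_iff_eq, ← te _ _] at this
      exact this
  have st : ∀ σ, p σ i = i → m = 0 ∨ p σ = 1 := fun σ x => m0.imp_right fun a => by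
    rcases P011UMS.flip6 (te.au (h.1 σ).1) with f | f
    · exact e.permCongr.injective (f.trans (Equiv.permCongr_refl e).symm)
    · have := congrFun f (e i)
      rw [Equiv.permCongr_apply, e.symm_apply_apply, x] at this
      exact absurd this ((by decide : ∀ y : Fin 6, y ≠ 1 ∧ y ≠ 3 → y ≠ ![5, 1, 4, 3, 2, 0] y) _ a)
  have iv : ∀ σ, p σ i = i → ∀ d, D.R.pr γ (p σ d) = D.R.pr γ d := fun σ x d => by
    rcases st σ x with a | a
    · have : p σ d = i ↔ d = i := ⟨fun y => (p σ).injective (y.trans x.symm), fun y => y ▸ x⟩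
      simp [pr, a, this]
    · rw [a]; rfl
  have ch : ∀ s, chi0 D.R K γ s * s j ^ (m : ℕ) = s i := fun s => by
    have a : ∀ i (m : ℤ), ∏ d, s d ^ (if d = i then m else 0) = s i ^ m := fun i m => by
      rw [Finset.prod_eq_single i (fun j _ a => by simp [a]) (by simp), if_pos rfl]
    rw [chi0_apply]
    simp only [pr, _root_.zpow_sub, Finset.prod_mul_distrib, Finset.prod_inv_distrib, a,
      zpow_natCast, zpow_one, inv_mul_cancel_right]
  refine ⟨fun σ => (∏ d, c σ d ^ γ d) * b σ ^ (m : ℕ), fun σ x τ y => ?_,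
    (b5.and b0).imp fun σ _ a _ => by simp [a.1, a.2]⟩
  have a : (z' σ τ j * (b σ * um σ (b τ))) ^ (m : ℕ) = b (σ * τ) ^ (m : ℕ) := by
    rcases st σ x with a | a
    · simp [a]
    rcases st τ y with a' | a'
    · simp [a']
    rw [hb σ τ (by rw [a]; rfl) (by rw [a']; rfl)]
  beta_reduce
  rw [← chi_bd (fun σ => (h.1 σ).1) (map_mul p) b4 (iv σ x) (iv τ y), ← a, ← ch (z' σ τ), map_mul,
    map_pow, mul_pow, mul_pow]
  ac_rfl

end Vale.Agent.P011UF2h
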